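import Crest.Agent.N255.Ma.Wd
import Crest.Agent.N255.Wv.Fam

/-!
# Row 255 (helper52): the linear part and the sources of the vertex family
-/

set_option autoImplicit false
open Set Sum

noncomputable section

namespace Crest.Agent.N255.Vl
open Tp Nv Pt Lv En Wn Le Ma

variable {F : Subgroup F3} {S : Type} [MulAction F3 S] {X : Type} [TopologicalSpace X]
  [MulAction F X] [ContinuousConstSMul F X] {k : Type} [Field k] {g : Geo F k S X} {u R₀ : ℝ} {n : ℕ}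

section wall
variable {J : Type} [Fintype J] {τ : Ty J} {e : Ed (Fin 3)} {o : Bool} (ω : Wd g u R₀ n τ e o)

theorem u_lt (m : ℕ) : u < ω.l m := (ω.ua.trans_lt ω.al).trans_le (ω.win.ml.monotone m.zero_le)

theorem l_le {m m' : ℕ} (h : m ≤ m') : ω.l m ≤ ω.l m' := ω.win.ml.monotone h

theorem r_pos (m : ℕ) : 0 < ω.r m := (ω.u0.trans (u_lt ω 0)).trans (ω.win.lt 0 m)

theorem ct_cc (j : J) : ω.ct j ∈ Cc k univ k 1 := Wv.ct_Cc (ω.mem j).1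

variable {ω}

theorem B_far {j : J} (h : τ.kd j ≠ o) (m : ℕ) : ω.B (τ.kd j == o) m = hi (g.E.s e) (ω.l m) := by
  rw [show (τ.kd j == o) = false by simpa using h]; rfl

theorem B_near {j : J} (h : τ.kd j = o) (m : ℕ) : ω.B (τ.kd j == o) m = lo (g.E.s e) (ω.r m) := by
  rw [show (τ.kd j == o) = true by simpa using h]; rfl

/-- far cut classes vanish behind the cut -/
theorem ct_far {j : J} (h : τ.kd j ≠ o) {m : ℕ} (hm : m ≤ τ.sc j + 1) :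
    ω.ct j ∈ (On (hi (g.E.s e) (ω.l m))ᶜ).van k k 1 :=
  van_mono (compl_subset_compl.2 (by rw [B_far h]; exact hi_mono (l_le ω hm))) Wv.ct_van

theorem ct_far_sub {j : J} (h : τ.kd j ≠ o) {m : ℕ} (hm : τ.sc j + 1 ≤ m) :
    ω.ct j - ω.h j ∈ (On (hi (g.E.s e) (ω.l m))).van k k 1 :=
  van_mono (by rw [B_far h]; exact hi_mono (l_le ω hm)) Wv.ct_sub

theorem sum_ct {x : J → k} (hx : ∀ j, x j ≠ 0 → τ.kd j ≠ o ∧ τ.sc j = 0) :
    ∑ j, x j • ω.ct j ∈ (On (hi (g.E.s e) (ω.l 1))ᶜ).van k k 1 ∧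
      ∑ j, x j • ω.ct j - ∑ j, x j • ω.h j ∈ (On (hi (g.E.s e) (ω.l 1))).van k k 1 := by
  rw [← Finset.sum_sub_distrib]
  refine ⟨sum_mem fun j _ => ?_, sum_mem fun j _ => ?_⟩ <;> by_cases h : x j = 0
  · simp [h]
  · exact Submodule.smul_mem _ _ (ct_far (hx j h).1 (by omega))
  · simp [h]
  · rw [← smul_sub]
    exact Submodule.smul_mem _ _ (ct_far_sub (hx j h).1 (by rw [(hx j h).2]))

end wall

theorem bey_le {e e' : Ed (Fin 3)} (h : Bey (rev e) e') (x : X) : g.E.s e x + g.E.s e' x ≤ 0 := by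
  have := g.E.s_bey _ _ x h
  rw [g.E.s_rev] at this
  linarith

variable {J : Fin 3 → Type} [∀ i, Fintype (J i)] {τ : ∀ i, Ty (J i)} {v : F3} {t o : Fin 3 → Bool}

theorem hi_lo {i j : Fin 3} (h : i ≠ j) {a b : ℝ} (hab : 0 ≤ a + b) :
    hi (g.E.s (st v t i)) a ⊆ lo (g.E.s (st v t j)) b := fun x hx => by
  have := bey_le (g := g) (st_bey v t h) x
  show _ < b
  linarith [show a < _ from hx]

theorem hi_compl {i j : Fin 3} (h : i ≠ j) {a b : ℝ} (ha : 0 ≤ a) (hb : 0 ≤ b) :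
    hi (g.E.s (st v t i)) a ⊆ (hi (g.E.s (st v t j)) b)ᶜ := fun x hx hx' => by
  have := bey_le (g := g) (st_bey v t h) x
  linarith [show a < _ from hx, show b < _ from hx']

variable (ω : ∀ i, Wd g u R₀ n (τ i) (st v t i) (o i))

/-- the allowed linear transfers `q ↦ (i, j)` -/
def Tf (τ : ∀ i, Ty (J i)) (o : Fin 3 → Bool) (i : Fin 3) (j : J i) (q : Σ i, J i ⊕ Bool) : Prop :=
  q.1 ≠ i ∧ (τ i).kd j ≠ o i ∧ (τ i).sc j = 0 ∧ ((∃ j', q.2 = inl j' ∧ (τ q.1).kd j' = o q.1 ∧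
    (τ q.1).sc j' = 0 ∧ (τ i).dp j < (τ q.1).dp j') ∨ (q.2 = inr false ∧ o q.1 = false))

/-- **the linear classes at a vertex**; `c i` is the longitude cut -/
structure Lin (c : Fin 3 → ℝ) where
  cG : (Σ i, J i ⊕ Bool) → Co k 1 X
  lx : ∀ i, J i → (Σ i, J i ⊕ Bool) → k
  cc : ∀ q, cG q ∈ Cc k univ k 1
  cob_inl : ∀ i j, cob k (cG ⟨i, inl j⟩) = cob k ((ω i).ct j)
  far : ∀ i j, (τ i).kd j ≠ o i → cG ⟨i, inl j⟩ = (ω i).ct j
  y : ∀ i, cG ⟨i, inr true⟩ = 0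
  wL : ∀ i, o i = false → cob k (cG ⟨i, inr false⟩) = -cob k (ω i).η
  wM : ∀ i, o i = true → cG ⟨i, inr false⟩ = -Wv.ct (hi (g.E.s (st v t i)) (c i)) (ω i).η
  own : ∀ i x, cG ⟨i, x⟩ - (ω i).cx x ∈ (On (hi (g.E.s (st v t i)) (c i))).van k k 1
  agr : ∀ i q, q.1 ≠ i → cG q - ∑ j, lx i j q • (ω i).ct j ∈
    vo k g.E.cv (hi (g.E.s (st v t i)) ((ω i).l 2)) 1
  tf : ∀ i j q, lx i j q ≠ 0 → Tf τ o i j q

/-- one hat -/
theorem hat (i₀ : Fin 3) (φ : Co k 1 X) {Q : ∀ i, J i → Prop}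
    (h : ∀ i, i ≠ i₀ → ∃ x : J i → k, (∀ j, x j ≠ 0 → ((τ i).kd j ≠ o i ∧ (τ i).sc j = 0) ∧ Q i j) ∧
      ∃ η ∈ Cc k univ k 0, φ - ∑ j, x j • (ω i).h j - cob k η ∈
        vo k g.E.cv (hi (g.E.s (st v t i)) ((ω i).l 2)) 1) :
    ∃ ζ ∈ Cc k univ k 0, ζ ∈ (On (hi (g.E.s (st v t i₀)) 0)).van k k 0 ∧ ∃ x : ∀ i, J i → k,
      (∀ i j, x i j ≠ 0 → i₀ ≠ i ∧ ((τ i).kd j ≠ o i ∧ (τ i).sc j = 0) ∧ Q i j) ∧
      ∀ i, i₀ ≠ i → φ - cob k ζ - ∑ j, x i j • (ω i).ct j ∈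
        vo k g.E.cv (hi (g.E.s (st v t i)) ((ω i).l 2)) 1 := by
  classical
  choose! x h1 η h2 h3 using h
  have l0 : ∀ i m, 0 ≤ (ω i).l m := fun i m => ((ω i).u0.trans (u_lt (ω i) m)).le
  let y : ∀ i, J i → k := fun i => if i = i₀ then 0 else x i
  have hy : ∀ i j, y i j ≠ 0 → i₀ ≠ i ∧ ((τ i).kd j ≠ o i ∧ (τ i).sc j = 0) ∧ Q i j := fun i j hj => by
    by_cases e : i = i₀
    · simp [y, e] at hj
    · exact ⟨Ne.symm e, h1 i e j (by simpa [y, e] using hj)⟩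
  have s := fun i => sum_ct (ω := ω i) fun j hj => (hy i j hj).2.1
  have hd : ∀ b b', b ≠ b' → hi (g.E.s (st v t b)) ((ω b).l 1) ⊆
      (hi (g.E.s (st v t b')) ((ω b').l 1))ᶜ := fun b b' h => hi_compl h (l0 _ _) (l0 _ _)
  have hU : ∀ b, hi (g.E.s (st v t b)) ((ω b).l 2) ⊆ hi (g.E.s (st v t b)) ((ω b).l 1) :=
    fun b => hi_mono (l_le (ω b) one_le_two)
  obtain ⟨ζ, a1, a2, a3⟩ := Wv.exists_hat hU (fun b b' h => disjoint_left.2 (hd b b' h))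
    (P := fun i => (On (hi (g.E.s (st v t i)) ((ω i).l 2))).inf (Sm g.E.cv))
    (fun _ => Sb.inf_le_left) {i | i ≠ i₀} φ (fun b => (s b).1) fun b hb => ⟨η b, h2 b hb, by
      have := sub_mem (h3 b hb) (on_le (hU b) (s b).2)
      simp only [y, if_neg hb] at this ⊢
      convert this using 1; abel⟩
  refine ⟨ζ, a1, van_mono (fun z hz hz' => ?_) a2, y, hy, fun i hi' => ?_⟩
  · obtain ⟨b, hb, h⟩ := mem_iUnion₂.1 hz'
    exact hi_compl (Ne.symm hb) le_rfl (l0 _ _) hz h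
  · have := add_mem (a3 i hi'.symm) (sum_mem fun b (hb : b ∈ Finset.univ.erase i) =>
      on_le ((hU i).trans (hd i b (Finset.ne_of_mem_erase hb).symm)) (s b).1)
    convert this using 1
    rw [← Finset.add_sum_erase _ _ (Finset.mem_univ i)]; abel

variable {ω}

theorem hat_near (dep : ∀ i j, i ≠ j → (ω i).Dep (ω j)) {i₀ : Fin 3} {j₀ : J i₀}
    (h : (τ i₀).kd j₀ = o i₀) (i : Fin 3) (hi' : i ≠ i₀) : ∃ x : J i → k, (∀ j, x j ≠ 0 →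
      ((τ i).kd j ≠ o i ∧ (τ i).sc j = 0) ∧ (τ i₀).sc j₀ = 0 ∧ (τ i).dp j < (τ i₀).dp j₀) ∧
      ∃ η ∈ Cc k univ k 0, (ω i₀).ct j₀ - ∑ j, x j • (ω i).h j - cob k η ∈
        vo k g.E.cv (hi (g.E.s (st v t i)) ((ω i).l 2)) 1 := by
  obtain ⟨x, a, b⟩ := dep i₀ i hi'.symm j₀ h
  obtain ⟨η, b1, b2⟩ := mem_BP.1 b
  refine ⟨x, fun j hj => ⟨⟨(a j hj).1, (a j hj).2.1⟩, (a j hj).2.2⟩, η, b1, on_le subset_rfl ?_⟩
  have : (ω i₀).ct j₀ - (ω i₀).h j₀ ∈ (On (hi (g.E.s (st v t i)) ((ω i).l 2))).van k k 1 :=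
    van_mono (by
      rw [B_near h]
      exact hi_lo hi' (add_pos ((ω i).u0.trans (u_lt _ 2)) (r_pos _ _)).le) Wv.ct_sub
  convert add_mem this b2 using 1; abel

theorem eta_Z {i₀ i : Fin 3} (h : o i₀ = false) (hi' : i ≠ i₀) :
    (ω i₀).η ∈ (g.E.toLev.Sb (hi (g.E.s (st v t i)) u)).Z k k 1 := by
  have b := (ω i₀).bz.cl
  simp only [h, me_false, rev_rev, Bool.false_eq_true, if_false] at b
  have hb : 0 < (ω i₀).b := (r_pos _ 0).trans (ω i₀).rb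
  have := sub_mem (Sb.van_le_Z (P := g.E.toLev.Sb (hi (g.E.s (st v t i)) u))
    (x := Or.Xe g.E.toLev g.M k (st v t i₀) R₀) fun σ hσ => by
      rw [← show _ = Or.Xe g.E.toLev g.M k (st v t i₀) R₀ σ from Lev.mz_cast k σ,
        (ω i₀).big.mz_zero (st_bey v t hi'.symm) hσ.1, Int.cast_zero])
    (Sb.Z_mono (P := g.E.toLev.Sb (hi (g.E.s (st v t i)) u)) (Q := g.E.toLev.Sb (lo (g.E.s (st v t i₀)) (ω i₀).b))
      (fun _ _ hσ => ⟨hσ.1.trans (hi_lo hi' (add_pos (ω i₀).u0 hb).le), hσ.2⟩) b)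
  simpa using this

theorem hat_eta (hn : 0 < n) {i₀ : Fin 3} (h : o i₀ = false) (i : Fin 3) (hi' : i ≠ i₀) :
    ∃ x : J i → k, (∀ j, x j ≠ 0 → ((τ i).kd j ≠ o i ∧ (τ i).sc j = 0) ∧ True) ∧
      ∃ η ∈ Cc k univ k 0, -(ω i₀).η - ∑ j, x j • (ω i).h j - cob k η ∈
        vo k g.E.cv (hi (g.E.s (st v t i)) ((ω i).l 2)) 1 := by
  obtain ⟨ψ, a1, a2⟩ := Wv.zp_of_sm g.E.cv_open (W := hi (g.E.s (st v t i)) ((ω i).l 1))
    ((subset_univ _).trans g.E.cv_cover) (neg_mem (ω i₀).bz.cc) (neg_mem (Sb.Z_mono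
      (P := g.E.toLev.Sb (hi (g.E.s (st v t i)) ((ω i).l 1))) (Q := g.E.toLev.Sb (hi (g.E.s (st v t i)) u))
      (fun _ _ hσ => ⟨hσ.1.trans (hi_mono (u_lt _ 1).le), hσ.2⟩) (eta_Z h hi')))
  obtain ⟨x, b1, b⟩ := (ω i).span false 0 hn ψ a1
  obtain ⟨η, b2, b3⟩ := mem_BP.1 b
  refine ⟨x, fun j hj => ⟨⟨by simpa using (b1 j hj).1, by simpa using (b1 j hj).2⟩, trivial⟩, η, b2, ?_⟩
  rw [show -(ω i₀).η - ∑ j, x j • (ω i).h j - cob k η =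
    -(ω i₀).η - ψ + (ψ - ∑ j, x j • (ω i).h j - cob k η) by simp only [sub_eq_add_neg, add_assoc, neg_add_cancel_left]]
  exact add_mem (Sb.van_mono Sb.inf_le_right a2) (on_le subset_rfl b3)

/-- **existence of the linear classes** -/
theorem exists_lin (hn : 0 < n) (dep : ∀ i j, i ≠ j → (ω i).Dep (ω j)) {c : Fin 3 → ℝ}
    (hc : ∀ i, 0 ≤ c i) : Nonempty (Lin ω c) := by
  have key : ∀ q : Σ i, J i ⊕ Bool, ∃ (φ : Co k 1 X) (x : ∀ i, J i → k), φ ∈ Cc k univ k 1 ∧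
      (∀ j, q.2 = inl j → cob k φ = cob k ((ω q.1).ct j) ∧
        ((τ q.1).kd j ≠ o q.1 → φ = (ω q.1).ct j)) ∧ (q.2 = inr true → φ = 0) ∧
      (q.2 = inr false → (o q.1 = false → cob k φ = -cob k (ω q.1).η) ∧
        (o q.1 = true → φ = -Wv.ct (hi (g.E.s (st v t q.1)) (c q.1)) (ω q.1).η)) ∧
      φ - (ω q.1).cx q.2 ∈ (On (hi (g.E.s (st v t q.1)) (c q.1))).van k k 1 ∧
      (∀ i, q.1 ≠ i → φ - ∑ j, x i j • (ω i).ct j ∈
        vo k g.E.cv (hi (g.E.s (st v t i)) ((ω i).l 2)) 1) ∧ ∀ i j, x i j ≠ 0 → Tf τ o i j q := by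
    have l0 : ∀ i m, 0 ≤ (ω i).l m := fun i m => ((ω i).u0.trans (u_lt (ω i) m)).le
    rintro ⟨i₀, j₀ | _ | _⟩
    · by_cases h : (τ i₀).kd j₀ = o i₀
      · obtain ⟨ζ, a1, a2, x, a3, a4⟩ := hat ω i₀ _ (hat_near dep h)
        refine ⟨_, x, sub_mem (ct_cc _ _) (cob_mem_Cc a1), ?_, by simp, by simp, ?_, a4,
          fun i j hj => ⟨(a3 i j hj).1, (a3 i j hj).2.1.1, (a3 i j hj).2.1.2,
            .inl ⟨j₀, rfl, h, (a3 i j hj).2.2⟩⟩⟩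
        · rintro _ ⟨⟩
          exact ⟨by simp [cob_cob], fun h' => absurd h h'⟩
        · simpa [Wd.cx] using van_mono (hi_mono (hc i₀)) (Sb.cob_mem a2)
      · refine ⟨(ω i₀).ct j₀, 0, ct_cc _ _, ?_, by simp, by simp, by simp [Wd.cx], fun i hi' => ?_,
          by simp⟩
        · rintro _ ⟨⟩
          exact ⟨rfl, fun _ => rfl⟩
        · simpa using on_le (hi_compl (Ne.symm hi') (l0 _ _) (l0 _ 0)) (ct_far h (Nat.zero_le _))
    · rcases (Bool.eq_false_or_eq_true (o i₀)).symm with h | h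
      · obtain ⟨ζ, a1, a2, x, a3, a4⟩ := hat ω i₀ _ (hat_eta hn h)
        refine ⟨_, x, sub_mem (neg_mem (ω i₀).bz.cc) (cob_mem_Cc a1), by simp, by simp,
          fun _ => ⟨fun _ => by simp [cob_cob], by simp [h]⟩, ?_, a4,
          fun i j hj => ⟨(a3 i j hj).1, (a3 i j hj).2.1.1, (a3 i j hj).2.1.2, .inr ⟨rfl, h⟩⟩⟩
        show -(ω i₀).η - cob k ζ - -(ω i₀).η ∈ _
        rw [sub_sub_cancel_left]
        exact neg_mem (van_mono (hi_mono (hc i₀)) (Sb.cob_mem a2))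
      · refine ⟨-Wv.ct (hi (g.E.s (st v t i₀)) (c i₀)) (ω i₀).η, 0, neg_mem (Wv.ct_Cc (ω i₀).bz.cc),
          by simp, by simp, fun _ => ⟨by simp [h], fun _ => rfl⟩, ?_, fun i hi' => ?_, by simp⟩
        · convert neg_mem (Wv.ct_sub (C := hi (g.E.s (st v t i₀)) (c i₀)) (a := (ω i₀).η)) using 1
          simp only [Wd.cx, elim_inr, Bool.false_eq_true, if_false]; abel
        · simpa using on_le (hi_compl (Ne.symm hi') (l0 _ _) (hc _)) Wv.ct_van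
    · exact ⟨0, 0, zero_mem _, by simp, by simp, by simp, by simp [Wd.cx], by simp, by simp⟩
  choose φ x h1 h2 h3 h4 h5 h6 h7 using key
  exact ⟨⟨φ, fun i j q => x q i j, h1, fun i j => (h2 ⟨i, inl j⟩ j rfl).1,
    fun i j => (h2 ⟨i, inl j⟩ j rfl).2, fun i => h3 ⟨i, _⟩ rfl, fun i => (h4 ⟨i, _⟩ rfl).1,
    fun i => (h4 ⟨i, _⟩ rfl).2, fun i x => h5 ⟨i, x⟩, fun i q => h6 q i, fun i j q => h7 q i j⟩⟩

end Crest.Agent.N255.Vl

end
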